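import Mathlib

namespace Vale.Agent.Results.P229.KillingFieldMetrics

open scoped ContDiff
open Real

/-- The metric `g11 dx^2 + 2 g12 dx dy + g22 dy^2` is locally smoothly realizable at `p`:
some open neighbourhood of `p` has a smooth map into Euclidean three-space whose first
fundamental form is the metric. -/
def LocallySmoothlyRealizable (g11 g12 g22 : ℝ × ℝ → ℝ) (p : ℝ × ℝ) : Prop :=
  ∃ U : Set (ℝ × ℝ), IsOpen U ∧ p ∈ U ∧ ∃ Φ : ℝ × ℝ → EuclideanSpace ℝ (Fin 3),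
    ContDiffOn ℝ ∞ Φ U ∧ ∀ q ∈ U,
      inner ℝ (fderiv ℝ Φ q (1, 0)) (fderiv ℝ Φ q (1, 0)) = g11 q ∧
      inner ℝ (fderiv ℝ Φ q (1, 0)) (fderiv ℝ Φ q (0, 1)) = g12 q ∧
      inner ℝ (fderiv ℝ Φ q (0, 1)) (fderiv ℝ Φ q (0, 1)) = g22 q

lemma contDiff_primitive (u : ℝ → ℝ) (hu : ContDiff ℝ ∞ u) (a : ℝ) :
    ContDiff ℝ ∞ (fun x => ∫ t in a..x, u t) := by
  rw [contDiff_infty_iff_deriv]
  refine ⟨fun x => (hu.continuous.integral_hasStrictDerivAt a x).hasDerivAt.differentiableAt, ?_⟩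
  have : deriv (fun x => ∫ t in a..x, u t) = u := by
    funext x; exact hu.continuous.deriv_integral u a x
  rw [this]; exact hu

lemma fderiv_comp_apply (Φ : ℝ × ℝ → EuclideanSpace ℝ (Fin 3)) (q v : ℝ × ℝ)
    (h : DifferentiableAt ℝ Φ q) (i : Fin 3) :
    (fderiv ℝ Φ q v) i = fderiv ℝ (fun x => Φ x i) q v := by
  have h1 := (PiLp.hasFDerivAt_apply (𝕜 := ℝ) 2 (Φ q) i).comp q h.hasFDerivAt
  have h2 : fderiv ℝ (fun x => Φ x i) q = (PiLp.proj 2 (fun _ : Fin 3 => ℝ) i).comp (fderiv ℝ Φ q) :=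
    h1.fderiv
  rw [h2]; rfl


lemma fderiv_dir_fst (X : ℝ × ℝ → ℝ) (q : ℝ × ℝ) (hX : DifferentiableAt ℝ X q) (d : ℝ)
    (h : HasDerivAt (fun t => X (t, q.2)) d q.1) : fderiv ℝ X q (1, 0) = d := by
  have γ : HasDerivAt (fun t : ℝ => (t, q.2)) ((1 : ℝ), (0 : ℝ)) q.1 :=
    (hasDerivAt_id _).prodMk (hasDerivAt_const _ _)
  have hX' : HasFDerivAt X (fderiv ℝ X q) ((fun t : ℝ => (t, q.2)) q.1) := by
    simpa using hX.hasFDerivAt
  exact (hX'.comp_hasDerivAt q.1 γ).unique h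

lemma fderiv_dir_snd (X : ℝ × ℝ → ℝ) (q : ℝ × ℝ) (hX : DifferentiableAt ℝ X q) (d : ℝ)
    (h : HasDerivAt (fun t => X (q.1, t)) d q.2) : fderiv ℝ X q (0, 1) = d := by
  have γ : HasDerivAt (fun t : ℝ => (q.1, t)) ((0 : ℝ), (1 : ℝ)) q.2 :=
    (hasDerivAt_const _ _).prodMk (hasDerivAt_id _)
  have hX' : HasFDerivAt X (fderiv ℝ X q) ((fun t : ℝ => (q.1, t)) q.2) := by
    simpa using hX.hasFDerivAt
  exact (hX'.comp_hasDerivAt q.2 γ).unique h

lemma deriv_cos_x (c : ℝ) (hc : c ≠ 0) (ρ φ : ℝ → ℝ) (ρ' φ' x y : ℝ)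
    (hρ : HasDerivAt ρ ρ' x) (hφ : HasDerivAt φ φ' x) :
    HasDerivAt (fun t => c * ρ t * cos ((y + φ t) / c))
      (c * ρ' * cos ((y + φ x) / c) - ρ x * φ' * sin ((y + φ x) / c)) x := by
  have h := (hρ.const_mul c).mul (((hφ.const_add y).div_const c).cos)
  refine h.congr_deriv ?_
  field_simp
  ring

lemma deriv_sin_x (c : ℝ) (hc : c ≠ 0) (ρ φ : ℝ → ℝ) (ρ' φ' x y : ℝ)
    (hρ : HasDerivAt ρ ρ' x) (hφ : HasDerivAt φ φ' x) :
    HasDerivAt (fun t => c * ρ t * sin ((y + φ t) / c))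
      (c * ρ' * sin ((y + φ x) / c) + ρ x * φ' * cos ((y + φ x) / c)) x := by
  have h := (hρ.const_mul c).mul (((hφ.const_add y).div_const c).sin)
  refine h.congr_deriv ?_
  field_simp

lemma deriv_cos_y (c : ℝ) (hc : c ≠ 0) (r a y : ℝ) :
    HasDerivAt (fun t => c * r * cos ((t + a) / c)) (- r * sin ((y + a) / c)) y := by
  have h := ((((hasDerivAt_id' y).add_const a).div_const c).cos).const_mul (c * r)
  refine h.congr_deriv ?_
  field_simp

lemma deriv_sin_y (c : ℝ) (hc : c ≠ 0) (r a y : ℝ) :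
    HasDerivAt (fun t => c * r * sin ((t + a) / c)) (r * cos ((y + a) / c)) y := by
  have h := ((((hasDerivAt_id' y).add_const a).div_const c).sin).const_mul (c * r)
  refine h.congr_deriv ?_
  field_simp

/-- Every smooth Riemannian metric `E(x) dx^2 + 2 F(x) dx dy + G(x) dy^2` on the plane whose
coefficients do not depend on `y` is locally smoothly realizable at every point. -/
theorem result (E F G : ℝ → ℝ) (hE : ContDiff ℝ ∞ E) (hF : ContDiff ℝ ∞ F)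
    (hG : ContDiff ℝ ∞ G) (hGpos : ∀ x, 0 < G x) (hdet : ∀ x, 0 < E x * G x - F x ^ 2)
    (p : ℝ × ℝ) :
    LocallySmoothlyRealizable (fun q => E q.1) (fun q => F q.1) (fun q => G q.1) p := by
  set ρ : ℝ → ℝ := fun x => √(G x) with hρdef
  have hρ : ContDiff ℝ ∞ ρ := hG.sqrt (fun x => (hGpos x).ne')
  have hρ' : ContDiff ℝ ∞ (deriv ρ) := (contDiff_infty_iff_deriv.mp hρ).2
  have hρd : ∀ x, HasDerivAt ρ (deriv ρ x) x :=
    fun x => ((contDiff_infty_iff_deriv.mp hρ).1 x).hasDerivAt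
  have hρsq : ∀ x, ρ x ^ 2 = G x := fun x => Real.sq_sqrt (hGpos x).le
  set u : ℝ → ℝ := fun x => F x / G x with hudef
  have hu : ContDiff ℝ ∞ u := hF.div hG (fun x => (hGpos x).ne')
  set φ : ℝ → ℝ := fun x => ∫ t in (0:ℝ)..x, u t with hφdef
  have hφ : ContDiff ℝ ∞ φ := contDiff_primitive u hu 0
  have hφd : ∀ x, HasDerivAt φ (u x) x :=
    fun x => (hu.continuous.integral_hasStrictDerivAt 0 x).hasDerivAt
  set Et : ℝ → ℝ := fun x => E x - F x ^ 2 / G x with hEtdef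
  have hEt : ContDiff ℝ ∞ Et := hE.sub ((hF.pow 2).div hG (fun x => (hGpos x).ne'))
  have hEtpos : ∀ x, 0 < Et x := by
    intro x
    have h1 := hdet x
    have hg := hGpos x
    simp only [hEtdef]
    rw [sub_pos, div_lt_iff₀ hg]
    linarith
  obtain ⟨c, hc0, hc⟩ : ∃ c : ℝ, 0 < c ∧ c ^ 2 * (deriv ρ p.1) ^ 2 < Et p.1 := by
    set d := deriv ρ p.1
    have hM : 0 < d ^ 2 + 1 := by positivity
    set t := Et p.1 / (d ^ 2 + 1) with ht
    have htpos : 0 < t := div_pos (hEtpos _) hM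
    have htM : t * (d ^ 2 + 1) = Et p.1 := div_mul_cancel₀ _ hM.ne'
    refine ⟨min 1 t, lt_min one_pos htpos, ?_⟩
    have h1 : min 1 t ≤ 1 := min_le_left _ _
    have h2 : min 1 t ≤ t := min_le_right _ _
    have h0 : 0 < min 1 t := lt_min one_pos htpos
    have h3 : (min 1 t) ^ 2 ≤ t := by nlinarith
    have h4 : (min 1 t) ^ 2 * d ^ 2 ≤ t * d ^ 2 := mul_le_mul_of_nonneg_right h3 (sq_nonneg d)
    nlinarith
  have hcne : c ≠ 0 := hc0.ne'
  set w : ℝ → ℝ := fun x => Et x - c ^ 2 * (deriv ρ x) ^ 2 with hwdef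
  have hw : ContDiff ℝ ∞ w := hEt.sub (contDiff_const.mul (hρ'.pow 2))
  set ψ : ℝ → ℝ := fun x => √(w x) with hψdef
  have hψc : Continuous ψ := Real.continuous_sqrt.comp hw.continuous
  set h : ℝ → ℝ := fun x => ∫ t in p.1..x, ψ t with hhdef
  have hhd : ∀ x, HasDerivAt h (ψ x) x :=
    fun x => (hψc.integral_hasStrictDerivAt p.1 x).hasDerivAt
  set I : Set ℝ := {x | 0 < w x} with hIdef
  have hI : IsOpen I := isOpen_lt continuous_const hw.continuous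
  have hh : ContDiffOn ℝ ∞ h I := by
    rw [contDiffOn_infty_iff_deriv_of_isOpen hI]
    refine ⟨fun x _ => (hhd x).differentiableAt.differentiableWithinAt, ?_⟩
    have : deriv h = ψ := funext fun x => (hhd x).deriv
    rw [this]
    exact hw.contDiffOn.sqrt (fun x hx => ne_of_gt hx)
  set X : ℝ × ℝ → ℝ := fun q => c * ρ q.1 * cos ((q.2 + φ q.1) / c) with hXdef
  set Y : ℝ × ℝ → ℝ := fun q => c * ρ q.1 * sin ((q.2 + φ q.1) / c) with hYdef
  set Z : ℝ × ℝ → ℝ := fun q => h q.1 with hZdef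
  set U : Set (ℝ × ℝ) := {q | 0 < w q.1} with hUdef
  have hU : IsOpen U := isOpen_lt continuous_const (hw.continuous.comp continuous_fst)
  have hang : ContDiff ℝ ∞ (fun q : ℝ × ℝ => (q.2 + φ q.1) / c) :=
    (contDiff_snd.add (hφ.comp contDiff_fst)).div_const c
  have hX : ContDiff ℝ ∞ X := (contDiff_const.mul (hρ.comp contDiff_fst)).mul hang.cos
  have hY : ContDiff ℝ ∞ Y := (contDiff_const.mul (hρ.comp contDiff_fst)).mul hang.sin
  have hZ : ContDiffOn ℝ ∞ Z U := hh.comp contDiff_fst.contDiffOn (fun q hq => hq)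
  set Φ : ℝ × ℝ → EuclideanSpace ℝ (Fin 3) := fun q => !₂[X q, Y q, Z q] with hΦdef
  have hΦ0 : (fun x => Φ x 0) = X := by funext x; simp [hΦdef]
  have hΦ1 : (fun x => Φ x 1) = Y := by funext x; simp [hΦdef]
  have hΦ2 : (fun x => Φ x 2) = Z := by funext x; simp [hΦdef]
  have hΦ : ContDiffOn ℝ ∞ Φ U := by
    rw [contDiffOn_euclidean]
    intro i
    fin_cases i
    · simpa [hΦ0] using hX.contDiffOn
    · simpa [hΦ1] using hY.contDiffOn
    · simpa [hΦ2] using hZ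
  refine ⟨U, hU, ?_, Φ, hΦ, ?_⟩
  · simpa [hUdef, hwdef] using hc
  intro q hq
  have hqw : 0 < w q.1 := hq
  have hΦq : DifferentiableAt ℝ Φ q :=
    (hΦ.contDiffAt (hU.mem_nhds hq)).differentiableAt (by simp)
  have hXq : DifferentiableAt ℝ X q := hX.contDiffAt.differentiableAt (by simp)
  have hYq : DifferentiableAt ℝ Y q := hY.contDiffAt.differentiableAt (by simp)
  have hZq : DifferentiableAt ℝ Z q :=
    (hZ.contDiffAt (hU.mem_nhds hq)).differentiableAt (by simp)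
  have X1 := fderiv_dir_fst X q hXq _ (deriv_cos_x c hcne ρ φ _ _ q.1 q.2 (hρd q.1) (hφd q.1))
  have Y1 := fderiv_dir_fst Y q hYq _ (deriv_sin_x c hcne ρ φ _ _ q.1 q.2 (hρd q.1) (hφd q.1))
  have Z1 := fderiv_dir_fst Z q hZq _ (hhd q.1)
  have X2 := fderiv_dir_snd X q hXq _ (deriv_cos_y c hcne (ρ q.1) (φ q.1) q.2)
  have Y2 := fderiv_dir_snd Y q hYq _ (deriv_sin_y c hcne (ρ q.1) (φ q.1) q.2)
  have Z2 := fderiv_dir_snd Z q hZq 0 (hasDerivAt_const q.2 (h q.1))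
  have comp : ∀ v : ℝ × ℝ, ∀ v' : ℝ × ℝ, inner ℝ (fderiv ℝ Φ q v) (fderiv ℝ Φ q v')
      = fderiv ℝ X q v * fderiv ℝ X q v' + fderiv ℝ Y q v * fderiv ℝ Y q v'
        + fderiv ℝ Z q v * fderiv ℝ Z q v' := by
    intro v v'
    rw [PiLp.inner_apply, Fin.sum_univ_three]
    have a0 := fderiv_comp_apply Φ q v hΦq 0
    have a1 := fderiv_comp_apply Φ q v hΦq 1
    have a2 := fderiv_comp_apply Φ q v hΦq 2
    have b0 := fderiv_comp_apply Φ q v' hΦq 0
    have b1 := fderiv_comp_apply Φ q v' hΦq 1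
    have b2 := fderiv_comp_apply Φ q v' hΦq 2
    rw [hΦ0] at a0 b0
    rw [hΦ1] at a1 b1
    rw [hΦ2] at a2 b2
    rw [a0, a1, a2, b0, b1, b2]
    simp only [RCLike.inner_apply, conj_trivial]
    ring
  have hcs := Real.cos_sq_add_sin_sq ((q.2 + φ q.1) / c)
  set C := cos ((q.2 + φ q.1) / c)
  set S := sin ((q.2 + φ q.1) / c)
  have hψsq : ψ q.1 ^ 2 = w q.1 := Real.sq_sqrt hqw.le
  have hr := hρsq q.1
  have hg := hGpos q.1
  have hGu : G q.1 * u q.1 = F q.1 := by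
    simp only [hudef]; field_simp
  have hGu2 : G q.1 * u q.1 ^ 2 = F q.1 ^ 2 / G q.1 := by
    simp only [hudef]; field_simp
  refine ⟨?_, ?_, ?_⟩
  · rw [comp, X1, Y1, Z1]
    have e : (c * deriv ρ q.1 * C - ρ q.1 * u q.1 * S) * (c * deriv ρ q.1 * C - ρ q.1 * u q.1 * S)
        + (c * deriv ρ q.1 * S + ρ q.1 * u q.1 * C) * (c * deriv ρ q.1 * S + ρ q.1 * u q.1 * C)
        + ψ q.1 * ψ q.1
        = (c ^ 2 * deriv ρ q.1 ^ 2 + ρ q.1 ^ 2 * u q.1 ^ 2) * (C ^ 2 + S ^ 2) + ψ q.1 ^ 2 := by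
      ring
    rw [e, hcs, hψsq, hr, hGu2]
    simp only [hwdef, hEtdef]
    ring
  · rw [comp, X1, Y1, Z1, X2, Y2, Z2]
    have e : (c * deriv ρ q.1 * C - ρ q.1 * u q.1 * S) * (-ρ q.1 * S)
        + (c * deriv ρ q.1 * S + ρ q.1 * u q.1 * C) * (ρ q.1 * C) + ψ q.1 * 0
        = ρ q.1 ^ 2 * u q.1 * (C ^ 2 + S ^ 2) := by ring
    rw [e, hcs, hr, mul_one, hGu]
  · rw [comp, X2, Y2, Z2]
    have e : -ρ q.1 * S * (-ρ q.1 * S) + ρ q.1 * C * (ρ q.1 * C) + 0 * 0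
        = ρ q.1 ^ 2 * (C ^ 2 + S ^ 2) := by ring
    rw [e, hcs, hr, mul_one]

end Vale.Agent.Results.P229.KillingFieldMetrics
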